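import Mathlib

/-! Row 262, GW-CORE (helper34).  `Eul/Alg`: Chern–Weil algebra with moment over an abstract
super-commutative ring with an odd derivation `D` (no `D² = 0` is assumed). -/

set_option autoImplicit false
set_option linter.unusedSectionVars false

open Matrix

namespace Crest.Agent.X262.Eul

/-- a ring with a grade involution whose even elements are central -/
class Sup (A : Type*) [Ring A] where
  σ : A →+* A
  σσ : ∀ a, σ (σ a) = a
  comm : ∀ a b, σ a = a → a * b = b * a
  ocomm : ∀ a b, σ a = -a → a * b = σ b * a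

export Sup (σ)

section ev
variable {A B : Type*} [Ring A] [Sup A] [Ring B] [Sup B]
variable {n m l k : Type*}

variable (A) in
/-- the even part -/
def Ev : Subring A where
  carrier := {a | σ a = a}
  mul_mem' := fun {a b} ha hb => by
    simp only [Set.mem_ofPred_eq] at *; rw [map_mul, ha, hb]
  one_mem' := map_one (σ : A →+* A)
  add_mem' := fun {a b} ha hb => by
    simp only [Set.mem_ofPred_eq] at *; rw [map_add, ha, hb]
  zero_mem' := map_zero (σ : A →+* A)
  neg_mem' := fun {a} ha => by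
    simp only [Set.mem_ofPred_eq] at *; rw [map_neg, ha]

instance : CommRing (Ev A) :=
  { (inferInstance : Ring (Ev A)) with
    mul_comm := fun a b => Subtype.ext (Sup.comm a.1 b.1 a.2) }

/-- even matrix -/
def EvM (M : Matrix n m A) : Prop := M.map σ = M
/-- odd matrix -/
def OdM (M : Matrix n m A) : Prop := M.map σ = -M

theorem EvM.ap {M : Matrix n m A} (h : EvM M) (i : n) (j : m) : σ (M i j) = M i j :=
  congrFun (congrFun h i) j
theorem OdM.ap {M : Matrix n m A} (h : OdM M) (i : n) (j : m) : σ (M i j) = - M i j :=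
  congrFun (congrFun h i) j

theorem σM_add (M N : Matrix n m A) : (M + N).map σ = M.map σ + N.map σ :=
  Matrix.ext fun _ _ => map_add (σ : A →+* A) _ _
theorem σM_sub (M N : Matrix n m A) : (M - N).map σ = M.map σ - N.map σ :=
  Matrix.ext fun _ _ => map_sub (σ : A →+* A) _ _
theorem σM_neg (M : Matrix n m A) : (-M).map σ = - M.map σ :=
  Matrix.ext fun _ _ => map_neg (σ : A →+* A) _
theorem σM_mul [Fintype m] (M : Matrix n m A) (N : Matrix m l A) :
    (M * N).map σ = M.map σ * N.map σ := Matrix.map_mul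

theorem EvM.add {M N : Matrix n m A} (h : EvM M) (h' : EvM N) : EvM (M + N) := by
  rw [EvM, σM_add, h, h']
theorem EvM.sub {M N : Matrix n m A} (h : EvM M) (h' : EvM N) : EvM (M - N) := by
  rw [EvM, σM_sub, h, h']
theorem EvM.neg {M : Matrix n m A} (h : EvM M) : EvM (-M) := by rw [EvM, σM_neg, h]
theorem EvM.zero : EvM (0 : Matrix n m A) := Matrix.ext fun _ _ => map_zero (σ : A →+* A)
theorem EvM.one [DecidableEq n] : EvM (1 : Matrix n n A) :=
  Matrix.map_one _ (map_zero _) (map_one _)
theorem OdM.add {M N : Matrix n m A} (h : OdM M) (h' : OdM N) : OdM (M + N) := by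
  rw [OdM, σM_add, h, h', neg_add]
theorem OdM.sub {M N : Matrix n m A} (h : OdM M) (h' : OdM N) : OdM (M - N) := by
  rw [OdM, σM_sub, h, h']; abel
theorem OdM.neg {M : Matrix n m A} (h : OdM M) : OdM (-M) := by rw [OdM, σM_neg, h]
theorem OdM.zero : OdM (0 : Matrix n m A) := by
  rw [OdM, neg_zero]; exact EvM.zero
section
variable [Fintype m] {M : Matrix n m A} {N : Matrix m l A}
theorem EvM.mul (h : EvM M) (h' : EvM N) : EvM (M * N) := by rw [EvM, σM_mul, h, h']
theorem EvM.mul_od (h : EvM M) (h' : OdM N) : OdM (M * N) := by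
  rw [OdM, σM_mul, h, h', Matrix.mul_neg]
theorem OdM.mul_ev (h : OdM M) (h' : EvM N) : OdM (M * N) := by
  rw [OdM, σM_mul, h, h', Matrix.neg_mul]
theorem OdM.mul (h : OdM M) (h' : OdM N) : EvM (M * N) := by
  rw [EvM, σM_mul, h, h', Matrix.neg_mul, Matrix.mul_neg, neg_neg]
end

theorem EvM.fromBlocks {n' m' : Type*} {M : Matrix n m A} {N : Matrix n m' A} {P : Matrix n' m A}
    {Q : Matrix n' m' A} (h1 : EvM M) (h2 : EvM N) (h3 : EvM P) (h4 : EvM Q) :
    EvM (fromBlocks M N P Q) := by
  rw [EvM, fromBlocks_map, h1, h2, h3, h4]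
theorem OdM.fromBlocks {n' m' : Type*} {M : Matrix n m A} {N : Matrix n m' A} {P : Matrix n' m A}
    {Q : Matrix n' m' A} (h1 : OdM M) (h2 : OdM N) (h3 : OdM P) (h4 : OdM Q) :
    OdM (fromBlocks M N P Q) := by
  rw [OdM, fromBlocks_map, h1, h2, h3, h4, fromBlocks_neg]

/-- an even matrix as a matrix over the even part -/
def toE (M : Matrix n m A) (h : EvM M) : Matrix n m (Ev A) := Matrix.of fun i j => ⟨M i j, h.ap i j⟩

/-- forget evenness -/
def ofE (M : Matrix n m (Ev A)) : Matrix n m A := M.map (Ev A).subtype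

theorem ofE_toE (M : Matrix n m A) (h : EvM M) : ofE (toE M h) = M := rfl
theorem evM_ofE (M : Matrix n m (Ev A)) : EvM (ofE M) := Matrix.ext fun i j => (M i j).2
theorem toE_ofE (M : Matrix n m (Ev A)) : toE (ofE M) (evM_ofE M) = M := rfl
theorem ofE_inj {M N : Matrix n m (Ev A)} (h : ofE M = ofE N) : M = N :=
  Matrix.ext fun i j => Subtype.ext (congrFun (congrFun h i) j)
theorem ofE_mul [Fintype m] (M : Matrix n m (Ev A)) (N : Matrix m l (Ev A)) :
    ofE (M * N) = ofE M * ofE N := Matrix.map_mul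
theorem ofE_add (M N : Matrix n m (Ev A)) : ofE (M + N) = ofE M + ofE N := rfl
theorem ofE_sub (M N : Matrix n m (Ev A)) : ofE (M - N) = ofE M - ofE N := rfl
theorem ofE_one [DecidableEq n] : ofE (1 : Matrix n n (Ev A)) = 1 :=
  Matrix.map_one _ (map_zero _) (map_one _)
theorem ofE_zero : ofE (0 : Matrix n m (Ev A)) = 0 := rfl
theorem EvM.exists {M : Matrix n m A} (h : EvM M) : ∃ N, M = ofE N := ⟨toE M h, rfl⟩

variable [Fintype n] [DecidableEq n]

open Classical in
/-- determinant of an even matrix (junk value `0` otherwise) -/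
noncomputable def detE (M : Matrix n n A) : A :=
  if h : EvM M then ((toE M h).det : Ev A) else 0

theorem detE_ofE (M : Matrix n n (Ev A)) : detE (ofE M) = (M.det : Ev A) := by
  rw [detE, dif_pos (evM_ofE M)]; rfl

theorem σ_detE (M : Matrix n n A) : σ (detE M) = detE M := by
  unfold detE
  split_ifs with h
  · exact (toE M h).det.2
  · exact map_zero _

theorem detE_one : detE (1 : Matrix n n A) = 1 := by
  rw [← ofE_one, detE_ofE, det_one]; rfl

theorem detE_mul {M N : Matrix n n A} (h : EvM M) (h' : EvM N) :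
    detE (M * N) = detE M * detE N := by
  obtain ⟨M, rfl⟩ := h.exists
  obtain ⟨N, rfl⟩ := h'.exists
  rw [← ofE_mul, detE_ofE, detE_ofE, detE_ofE, det_mul]; rfl

theorem detE_one_add_comm [Fintype m] [DecidableEq m] {M : Matrix n m A} {N : Matrix m n A}
    (h : EvM M) (h' : EvM N) : detE (1 + M * N) = detE (1 + N * M) := by
  obtain ⟨M, rfl⟩ := h.exists
  obtain ⟨N, rfl⟩ := h'.exists
  have e1 : 1 + ofE M * ofE N = ofE (1 + M * N) := by rw [ofE_add, ofE_one, ofE_mul]
  have e2 : 1 + ofE N * ofE M = ofE (1 + N * M) := by rw [ofE_add, ofE_one, ofE_mul]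
  rw [e1, e2, detE_ofE, detE_ofE, det_one_add_mul_comm]

theorem detE_upper [Fintype m] [DecidableEq m] {M : Matrix n n A} {N : Matrix n m A}
    {Q : Matrix m m A} (h1 : EvM M) (h2 : EvM N) (h4 : EvM Q) :
    detE (fromBlocks M N 0 Q) = detE M * detE Q := by
  obtain ⟨M, rfl⟩ := h1.exists
  obtain ⟨N, rfl⟩ := h2.exists
  obtain ⟨Q, rfl⟩ := h4.exists
  have : fromBlocks (ofE M) (ofE N) 0 (ofE Q) = ofE (fromBlocks M N 0 Q) := by
    rw [ofE, ofE, ofE, ofE, fromBlocks_map]; rfl
  rw [this, detE_ofE, detE_ofE, detE_ofE, det_fromBlocks_zero₂₁]; rfl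

theorem detE_lower [Fintype m] [DecidableEq m] {M : Matrix n n A} {N : Matrix m n A}
    {Q : Matrix m m A} (h1 : EvM M) (h2 : EvM N) (h4 : EvM Q) :
    detE (fromBlocks M 0 N Q) = detE M * detE Q := by
  obtain ⟨M, rfl⟩ := h1.exists
  obtain ⟨N, rfl⟩ := h2.exists
  obtain ⟨Q, rfl⟩ := h4.exists
  have : fromBlocks (ofE M) 0 (ofE N) (ofE Q) = ofE (fromBlocks M 0 N Q) := by
    rw [ofE, ofE, ofE, ofE, fromBlocks_map]; rfl
  rw [this, detE_ofE, detE_ofE, detE_ofE, det_fromBlocks_zero₁₂]; rfl

/-- a matrix killing a unimodular column has determinant zero -/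
theorem detE_eq_zero {M : Matrix n n A} {u : Matrix n Unit A} {w : Matrix Unit n A}
    (hM : EvM M) (hu : EvM u) (hw : EvM w) (h0 : M * u = 0) (h1 : w * u = 1) : detE M = 0 := by
  obtain ⟨M, rfl⟩ := hM.exists
  obtain ⟨u, rfl⟩ := hu.exists
  obtain ⟨w, rfl⟩ := hw.exists
  rw [← ofE_mul, ← ofE_zero] at h0
  rw [← ofE_mul, ← ofE_one] at h1
  have h2 := ofE_inj h0
  have h3 := ofE_inj h1
  have h4 : w * (M.adjugate * M) * u = 0 := by
    rw [Matrix.mul_assoc, Matrix.mul_assoc, h2, Matrix.mul_zero, Matrix.mul_zero]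
  rw [adjugate_mul, Matrix.mul_smul, Matrix.mul_one, Matrix.smul_mul, h3] at h4
  have h5 := congrFun (congrFun h4 ()) ()
  simp only [Matrix.smul_apply, Matrix.one_apply_eq, smul_eq_mul, mul_one, Matrix.zero_apply] at h5
  rw [detE_ofE, h5]; rfl

theorem detE_reindex [Fintype m] [DecidableEq m] (e : n ≃ m) {M : Matrix m m A} (h : EvM M) :
    detE (M.submatrix e e) = detE M := by
  obtain ⟨M, rfl⟩ := h.exists
  have : (ofE M).submatrix e e = ofE (M.submatrix e e) := rfl
  rw [this, detE_ofE, detE_ofE, det_submatrix_equiv_self]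

/-- a ring homomorphism commuting with the involutions, on the even parts -/
def evMap (φ : A →+* B) (h : ∀ a, φ (σ a) = σ (φ a)) : Ev A →+* Ev B :=
  (φ.comp (Ev A).subtype).codRestrict (Ev B) fun a => by
    change σ (φ a) = φ a
    rw [← h, a.2]

omit [Fintype n] [DecidableEq n] in
theorem EvM.map {M : Matrix n m A} (hM : EvM M) {φ : A →+* B} (h : ∀ a, φ (σ a) = σ (φ a)) :
    EvM (M.map φ) := Matrix.ext fun i j => by
  change σ (φ (M i j)) = φ (M i j)
  rw [← h, hM.ap]

omit [Fintype n] [DecidableEq n] in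
theorem OdM.map {M : Matrix n m A} (hM : OdM M) {φ : A →+* B} (h : ∀ a, φ (σ a) = σ (φ a)) :
    OdM (M.map φ) := Matrix.ext fun i j => by
  change σ (φ (M i j)) = - φ (M i j)
  rw [← h, hM.ap, map_neg]

theorem map_detE {M : Matrix n n A} (hM : EvM M) (φ : A →+* B) (h : ∀ a, φ (σ a) = σ (φ a)) :
    φ (detE M) = detE (M.map φ) := by
  obtain ⟨M, rfl⟩ := hM.exists
  have : (ofE M).map φ = ofE (M.map (evMap φ h)) := rfl
  rw [this, detE_ofE, detE_ofE]
  have h2 := RingHom.map_det (evMap φ h) M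
  change _ = ((((evMap φ h).mapMatrix M).det : Ev B) : B)
  rw [← h2]; rfl

end ev

/-! ### odd derivations -/

/-- an odd derivation -/
structure IsD {A : Type*} [Ring A] [Sup A] (D : A →+ A) : Prop where
  mul : ∀ a b, D (a * b) = D a * b + σ a * D b
  odd : ∀ a, σ (D a) = - D (σ a)

/-- type synonym carrying the symmetric bimodule structure over the even part -/
def Md (A : Type*) := A

section der
variable {A B : Type*} [Ring A] [Sup A] [Ring B] [Sup B] {D : A →+ A}
variable {n m l k : Type*}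

instance : AddCommGroup (Md A) := inferInstanceAs (AddCommGroup A)
instance : Module (Ev A) (Md A) := inferInstanceAs (Module (Ev A) A)
instance : Module (Ev A)ᵐᵒᵖ (Md A) :=
  Module.compHom _ ((RingHom.id (Ev A)).fromOpposite mul_comm)
instance : IsCentralScalar (Ev A) (Md A) := ⟨fun _ _ => rfl⟩

theorem IsD.one (hD : IsD D) : D 1 = 0 := by
  have := hD.mul 1 1
  rw [mul_one, mul_one, map_one (σ : A →+* A), one_mul] at this
  exact left_eq_add.1 this

/-- first jet along `D` -/
def jet (hD : IsD D) : Ev A →+* TrivSqZeroExt (Ev A) (Md A) where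
  toFun a := (a, (D a : A))
  map_one' := TrivSqZeroExt.ext rfl hD.one
  map_zero' := TrivSqZeroExt.ext rfl (map_zero D)
  map_add' a b := TrivSqZeroExt.ext rfl (map_add D _ _)
  map_mul' a b := TrivSqZeroExt.ext rfl (by
    change D ((a : A) * b) = (a : A) * D b + (b : A) * D a
    rw [hD.mul, a.2, add_comm, Sup.comm (b : A) _ b.2])

theorem dM_add (M N : Matrix n m A) : (M + N).map D = M.map D + N.map D :=
  Matrix.ext fun _ _ => map_add D _ _
theorem dM_sub (M N : Matrix n m A) : (M - N).map D = M.map D - N.map D :=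
  Matrix.ext fun _ _ => map_sub D _ _
theorem dM_neg (M : Matrix n m A) : (-M).map D = - M.map D :=
  Matrix.ext fun _ _ => map_neg D _
theorem dM_zero : (0 : Matrix n m A).map D = 0 := Matrix.ext fun _ _ => map_zero D
theorem IsD.dM_one (hD : IsD D) [DecidableEq n] : (1 : Matrix n n A).map D = 0 :=
  Matrix.ext fun i j => by
    by_cases h : i = j
    · subst h; simp [hD.one]
    · simp [Matrix.one_apply_ne h]

theorem IsD.dM_mul (hD : IsD D) [Fintype m] (M : Matrix n m A) (N : Matrix m l A) :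
    (M * N).map D = M.map D * N + M.map σ * N.map D := Matrix.ext fun i j => by
  simp only [Matrix.map_apply, Matrix.mul_apply, Matrix.add_apply, map_sum, hD.mul,
    Finset.sum_add_distrib]

theorem IsD.ev_mul (hD : IsD D) [Fintype m] {M : Matrix n m A} (h : EvM M) (N : Matrix m l A) :
    (M * N).map D = M.map D * N + M * N.map D := by rw [hD.dM_mul, h]

theorem IsD.od_mul (hD : IsD D) [Fintype m] {M : Matrix n m A} (h : OdM M) (N : Matrix m l A) :
    (M * N).map D = M.map D * N - M * N.map D := by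
  rw [hD.dM_mul, h, Matrix.neg_mul, sub_eq_add_neg]

theorem IsD.ev_d (hD : IsD D) {M : Matrix n m A} (h : EvM M) : OdM (M.map D) :=
  Matrix.ext fun i j => by
    change σ (D (M i j)) = - D (M i j)
    rw [hD.odd, h.ap]

theorem IsD.od_d (hD : IsD D) {M : Matrix n m A} (h : OdM M) : EvM (M.map D) :=
  Matrix.ext fun i j => by
    change σ (D (M i j)) = D (M i j)
    rw [hD.odd, h.ap, map_neg, neg_neg]

/-- `D D` is an even derivation -/
theorem IsD.dd_mul (hD : IsD D) [Fintype m] (M : Matrix n m A) (N : Matrix m l A) :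
    ((M * N).map D).map D = (M.map D).map D * N + M * (N.map D).map D := by
  have h1 : (M.map D).map σ = - (M.map σ).map D := Matrix.ext fun i j => hD.odd _
  have h2 : (M.map σ).map σ = M := Matrix.ext fun i j => Sup.σσ _
  rw [hD.dM_mul, dM_add, hD.dM_mul, hD.dM_mul, h1, h2, Matrix.neg_mul]
  abel

/-- the nilpotent copy of `A` -/
def rr : A →+ TrivSqZeroExt (Ev A) (Md A) where
  toFun a := ((0 : Ev A), a)
  map_zero' := rfl
  map_add' _ _ := TrivSqZeroExt.ext (add_zero (0 : Ev A)).symm rfl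

theorem rr_rr (a b : A) : rr a * rr b = 0 :=
  TrivSqZeroExt.inr_mul_inr (Ev A) (show Md A from a) (show Md A from b)

theorem inl_rr (c : Ev A) (a : A) :
    TrivSqZeroExt.inlHom (Ev A) (Md A) c * rr a = rr ((c : A) * a) :=
  TrivSqZeroExt.inl_mul_inr c (show Md A from a)

theorem rr_inl (c : Ev A) (a : A) :
    rr a * TrivSqZeroExt.inlHom (Ev A) (Md A) c = rr (a * (c : A)) := by
  rw [mul_comm, inl_rr, Sup.comm _ _ c.2]

theorem jet_eq (hD : IsD D) (c : Ev A) :
    jet hD c = TrivSqZeroExt.inlHom (Ev A) (Md A) c + rr (D c) :=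
  TrivSqZeroExt.ext (add_zero c).symm (zero_add (D c)).symm

/-- **closedness**: a matrix evolving by a commutator has `D`-constant determinant -/
theorem IsD.detE (hD : IsD D) [Fintype n] [DecidableEq n] {M θ : Matrix n n A} (hM : EvM M)
    (h : M.map D = M * θ - θ * M) : D (detE M) = 0 := by
  obtain ⟨M, rfl⟩ := hM.exists
  let ε := θ.map rr
  let M0 := M.map (TrivSqZeroExt.inlHom (Ev A) (Md A))
  have hε : ε * ε = 0 := Matrix.ext fun i j => by
    simp only [ε, Matrix.mul_apply, Matrix.map_apply, rr_rr,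
      Finset.sum_const_zero, Matrix.zero_apply]
  have hεMε : ε * M0 * ε = 0 := Matrix.ext fun i j => by
    simp only [ε, M0, Matrix.mul_apply, Matrix.map_apply, rr_inl, Finset.sum_mul, rr_rr,
      Finset.sum_const_zero, Matrix.zero_apply]
  have h1 : M.map (jet hD) = M0 + (M0 * ε - ε * M0) := Matrix.ext fun i j => by
    have h2 : D (M i j) = _ := congrFun (congrFun h i) j
    simp only [ε, M0, Matrix.mul_apply, Matrix.map_apply, Matrix.add_apply, Matrix.sub_apply,
      rr_inl, inl_rr, jet_eq, h2, map_sub, map_sum]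
    rfl
  have h2 : M.map (jet hD) = (1 - ε) * M0 * (1 + ε) := by
    rw [h1, Matrix.mul_add, Matrix.mul_one, Matrix.sub_mul, Matrix.one_mul, Matrix.sub_mul, hεMε]
    abel
  have h3 : (1 - ε).det * (1 + ε).det = 1 := by
    rw [← det_mul, Matrix.sub_mul, Matrix.one_mul, Matrix.mul_add, Matrix.mul_one, hε, add_zero,
      add_sub_cancel_right, det_one]
  have h4 : jet hD M.det = TrivSqZeroExt.inlHom (Ev A) (Md A) M.det := by
    rw [RingHom.map_det, RingHom.map_det]
    change (M.map (jet hD)).det = M0.det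
    rw [h2, det_mul, det_mul, mul_right_comm, h3, one_mul]
  rw [detE_ofE]
  exact congrArg TrivSqZeroExt.snd h4

end der

end Crest.Agent.X262.Eul
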