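import Crest.Agent.X262.Eul.Alg

/-! Row 262, GW-CORE (helper34).  `Eul/Cn`: connections with moment on the image of an idempotent
matrix, the equivariant top Chern form `eu`, closedness, gauge invariance, sums, vanishing. -/

set_option autoImplicit false
set_option linter.unusedSectionVars false

open Matrix

namespace Crest.Agent.X262.Eul

variable {A B : Type*} [Ring A] [Sup A] [Ring B] [Sup B] {D : A →+ A} {D' : B →+ B}
variable {n m l : Type*} [Fintype n] [Fintype m] [Fintype l]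

/-- equivariant curvature -/
def Om (D : A →+ A) (θ a : Matrix n n A) : Matrix n n A := θ.map D + θ * θ + a

/-- covariant derivative of an even homomorphism -/
def cov (D : A →+ A) (θ' : Matrix m m A) (θ : Matrix n n A) (S : Matrix m n A) : Matrix m n A :=
  S.map D + θ' * S - S * θ

/-- invariant homomorphism (`D D = -` Lie derivative) -/
def Inv (D : A →+ A) (a' : Matrix m m A) (a : Matrix n n A) (S : Matrix m n A) : Prop :=
  (S.map D).map D = a' * S - S * a

/-- the connection matrix `θ` is invariant -/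
def Bia (D : A →+ A) (θ a : Matrix n n A) : Prop :=
  (θ.map D).map D = a * θ - θ * a - a.map D

/-- invariant connection on the image of `P` -/
structure Cn (D : A →+ A) (P θ a : Matrix n n A) : Prop where
  evP : EvM P
  odθ : OdM θ
  eva : EvM a
  idem : P * P = P
  par : cov D θ θ P = 0
  inv : Inv D a a P
  bia : Bia D θ a

/-- the equivariant top Chern form of the image of `P` -/
noncomputable def eu [DecidableEq n] (D : A →+ A) (P θ a : Matrix n n A) : A :=
  detE (1 + (Om D θ a - 1) * P)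

section basic
variable {θ a P : Matrix n n A} {θ' a' P' : Matrix m m A} {θ'' a'' : Matrix l l A}

theorem evM_Om (hD : IsD D) (h : OdM θ) (ha : EvM a) : EvM (Om D θ a) :=
  ((hD.od_d h).add (h.mul h)).add ha

theorem odM_cov (hD : IsD D) (h' : OdM θ') (h : OdM θ) {S : Matrix m n A} (hS : EvM S) :
    OdM (cov D θ' θ S) := ((hD.ev_d hS).add (h'.mul_ev hS)).sub (hS.mul_od h)

theorem cov_eq_zero {S : Matrix m n A} : cov D θ' θ S = 0 ↔ S.map D = S * θ - θ' * S := by
  rw [cov]
  constructor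
  · intro h
    have : S.map D = (S.map D + θ' * S - S * θ) + (S * θ - θ' * S) := by abel
    rw [this, h, zero_add]
  · intro h; rw [h]; abel

theorem cov_mul (hD : IsD D) {S : Matrix l m A} {T : Matrix m n A} (hS : EvM S) :
    cov D θ'' θ (S * T) = cov D θ'' θ' S * T + S * cov D θ' θ T := by
  simp only [cov, hD.ev_mul hS, Matrix.add_mul, Matrix.sub_mul, Matrix.mul_add, Matrix.mul_sub,
    Matrix.mul_assoc]
  abel

theorem cov_add (S T : Matrix m n A) : cov D θ' θ (S + T) = cov D θ' θ S + cov D θ' θ T := by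
  simp only [cov, dM_add, Matrix.add_mul, Matrix.mul_add]; abel

theorem cov_sub (S T : Matrix m n A) : cov D θ' θ (S - T) = cov D θ' θ S - cov D θ' θ T := by
  simp only [cov, dM_sub, Matrix.sub_mul, Matrix.mul_sub]; abel

theorem cov_zero : cov D θ' θ (0 : Matrix m n A) = 0 := by
  simp only [cov, dM_zero, Matrix.zero_mul, Matrix.mul_zero, add_zero, sub_zero]

theorem cov_one (hD : IsD D) [DecidableEq n] : cov D θ θ 1 = 0 := by
  simp only [cov, hD.dM_one, Matrix.one_mul, Matrix.mul_one, zero_add, sub_self]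

theorem cov_left_add (C : Matrix m m A) (S : Matrix m n A) :
    cov D (θ' + C) θ S = cov D θ' θ S + C * S := by
  simp only [cov, Matrix.add_mul]; abel

theorem cov_left_sub (C : Matrix m m A) (S : Matrix m n A) :
    cov D (θ' - C) θ S = cov D θ' θ S - C * S := by
  simp only [cov, Matrix.sub_mul]; abel

theorem Inv.mul (hD : IsD D) {S : Matrix l m A} {T : Matrix m n A} (hS : Inv D a'' a' S)
    (hT : Inv D a' a T) : Inv D a'' a (S * T) := by
  rw [Inv, hD.dd_mul, hS, hT]
  simp only [Matrix.sub_mul, Matrix.mul_sub, Matrix.mul_assoc]; abel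

theorem Inv.add {S T : Matrix m n A} (hS : Inv D a' a S) (hT : Inv D a' a T) :
    Inv D a' a (S + T) := by
  rw [Inv, dM_add, dM_add, hS, hT, Matrix.mul_add, Matrix.add_mul]; abel

theorem Inv.neg {S : Matrix m n A} (hS : Inv D a' a S) : Inv D a' a (-S) := by
  rw [Inv, dM_neg, dM_neg, hS, Matrix.mul_neg, Matrix.neg_mul]; abel

theorem Inv.sub {S T : Matrix m n A} (hS : Inv D a' a S) (hT : Inv D a' a T) :
    Inv D a' a (S - T) := by rw [sub_eq_add_neg]; exact hS.add hT.neg

theorem Inv.zero : Inv D a' a (0 : Matrix m n A) := by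
  rw [Inv, dM_zero, dM_zero, Matrix.mul_zero, Matrix.zero_mul, sub_zero]

theorem Inv.one (hD : IsD D) [DecidableEq n] : Inv D a a 1 := by
  rw [Inv, hD.dM_one, dM_zero, Matrix.mul_one, Matrix.one_mul, sub_self]

omit [Fintype n] in
theorem mul_smul_ev {f : A} (hf : σ f = f) (M : Matrix l m A) (N : Matrix m n A) :
    M * (f • N) = f • (M * N) := Matrix.ext fun i j => by
  simp only [Matrix.mul_apply, Matrix.smul_apply, smul_eq_mul, Finset.mul_sum]
  exact Finset.sum_congr rfl fun c _ => by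
    rw [← mul_assoc, ← Sup.comm f _ hf, mul_assoc]

omit [Fintype n] [Fintype m] in
theorem EvM.smul {f : A} (hf : σ f = f) {M : Matrix m n A} (h : EvM M) : EvM (f • M) :=
  Matrix.ext fun i j => by
    change σ (f * M i j) = f * M i j
    rw [map_mul, hf, h.ap]

omit [Fintype n] [Fintype m] in
theorem OdM.smul {f : A} (hf : σ f = f) {M : Matrix m n A} (h : OdM M) : OdM (f • M) :=
  Matrix.ext fun i j => by
    change σ (f * M i j) = - (f * M i j)
    rw [map_mul, hf, h.ap, mul_neg]

theorem IsD.dd (hD : IsD D) (f g : A) : D (D (f * g)) = D (D f) * g + f * D (D g) := by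
  rw [hD.mul, map_add, hD.mul, hD.mul, hD.odd, Sup.σσ, neg_mul]; abel

theorem Inv.smul (hD : IsD D) {f : A} (hf : σ f = f) (hf' : D (D f) = 0) {S : Matrix m n A}
    (hS : Inv D a' a S) : Inv D a' a (f • S) := by
  have h1 : ((f • S).map D).map D = f • (S.map D).map D := Matrix.ext fun i j => by
    change D (D (f * S i j)) = f * D (D (S i j))
    rw [hD.dd, hf', zero_mul, zero_add]
  rw [Inv, h1, hS, mul_smul_ev hf, Matrix.smul_mul, smul_sub]

theorem Inv.cov (hD : IsD D) (ha' : EvM a') (hb' : Bia D θ' a') (hb : Bia D θ a)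
    {S : Matrix m n A} (hS : EvM S) (h : Inv D a' a S) : Inv D a' a (cov D θ' θ S) := by
  have h1 : ((S.map D).map D).map D = a'.map D * S + a' * S.map D - (S.map D * a + S * a.map D) := by
    rw [h, dM_sub, hD.ev_mul ha', hD.ev_mul hS]
  rw [Inv, Eul.cov, dM_sub, dM_add, dM_sub, dM_add, h1, hD.dd_mul, hD.dd_mul, h, hb, hb']
  simp only [Matrix.add_mul, Matrix.sub_mul, Matrix.mul_add, Matrix.mul_sub, Matrix.mul_assoc]
  abel

/-- a parallel invariant homomorphism intertwines the curvatures -/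
theorem om_comm (hD : IsD D) (h' : OdM θ') {S : Matrix m n A} (hS : EvM S)
    (hp : cov D θ' θ S = 0) (hi : Inv D a' a S) : Om D θ' a' * S = S * Om D θ a := by
  rw [cov_eq_zero] at hp
  have h1 : (S.map D).map D = S.map D * θ + S * θ.map D - (θ'.map D * S - θ' * S.map D) := by
    conv_lhs => rw [hp]
    rw [dM_sub, hD.ev_mul hS, hD.od_mul h']
  rw [hi, hp] at h1
  simp only [Matrix.sub_mul, Matrix.mul_sub, Matrix.mul_assoc] at h1
  simp only [Om, Matrix.add_mul, Matrix.mul_add, Matrix.mul_assoc]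
  have h2 : a' * S = S * a + (S * (θ * θ) - θ' * (S * θ) + S * θ.map D
      - (θ'.map D * S - (θ' * (S * θ) - θ' * (θ' * S)))) := by rw [← h1]; abel
  rw [h2]; abel

theorem bianchi (hD : IsD D) (h : OdM θ) (hb : Bia D θ a) :
    (Om D θ a).map D = Om D θ a * θ - θ * Om D θ a := by
  rw [Om, dM_add, dM_add, hb, hD.od_mul h]
  simp only [Matrix.add_mul, Matrix.mul_add, Matrix.mul_assoc]; abel

theorem Cn.om_comm (hD : IsD D) (h : Cn D P θ a) : Om D θ a * P = P * Om D θ a :=
  Eul.om_comm hD h.odθ h.evP h.par h.inv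

variable [DecidableEq n] [DecidableEq m]

theorem evM_eu (hD : IsD D) (hP : EvM P) (h : OdM θ) (ha : EvM a) :
    EvM (1 + (Om D θ a - 1) * P) := EvM.one.add (((evM_Om hD h ha).sub EvM.one).mul hP)

theorem σ_eu : σ (eu D P θ a) = eu D P θ a := σ_detE _

/-- **closedness** -/
theorem Cn.d_eu (hD : IsD D) (h : Cn D P θ a) : D (eu D P θ a) = 0 := by
  refine hD.detE (θ := θ) (evM_eu hD h.evP h.odθ h.eva) ?_
  have hO := evM_Om hD h.odθ h.eva
  rw [dM_add, hD.dM_one, hD.ev_mul (hO.sub EvM.one), dM_sub, hD.dM_one, bianchi hD h.odθ h.bia,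
    cov_eq_zero.1 h.par]
  simp only [Matrix.add_mul, Matrix.sub_mul, Matrix.mul_add, Matrix.mul_sub, Matrix.mul_assoc,
    Matrix.one_mul, Matrix.mul_one, sub_zero, zero_add]
  abel

/-- **gauge invariance** (rectangular) -/
theorem eu_gauge (hD : IsD D) (h : OdM θ) (ha : EvM a) (h' : OdM θ') (ha' : EvM a')
    {S : Matrix m n A} {T : Matrix n m A} (hS : EvM S) (hT : EvM T) (h1 : T * S = P)
    (h2 : S * T = P') (hp : cov D θ' θ S = 0) (hi : Inv D a' a S) :
    eu D P' θ' a' = eu D P θ a := by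
  have hO := (evM_Om hD h ha).sub (EvM.one (n := n))
  have hO' := (evM_Om hD h' ha').sub (EvM.one (n := m))
  rw [eu, eu, ← h1, ← h2, ← Matrix.mul_assoc, detE_one_add_comm (hO'.mul hS) hT,
    detE_one_add_comm hO (hT.mul hS), Matrix.sub_mul, om_comm hD h' hS hp hi]
  simp only [Matrix.mul_sub, Matrix.mul_assoc, Matrix.one_mul, Matrix.mul_one]

/-- only the compression of the curvature matters -/
theorem eu_congr {θ₁ a₁ : Matrix n n A} (h : Om D θ a * P = Om D θ₁ a₁ * P) :
    eu D P θ a = eu D P θ₁ a₁ := by rw [eu, eu, Matrix.sub_mul, Matrix.sub_mul, h]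

/-- **vanishing** along a parallel invariant unimodular section -/
theorem eu_eq_zero (hD : IsD D) (hP : EvM P) (h : OdM θ) (ha : EvM a) {u : Matrix n Unit A}
    {w : Matrix Unit n A} (hu : EvM u) (hw : EvM w) (h1 : w * u = 1) (hPu : P * u = u)
    (hp : cov D θ 0 u = 0) (hi : Inv D a 0 u) : eu D P θ a = 0 := by
  refine detE_eq_zero (evM_eu hD hP h ha) hu hw ?_ h1
  have h2 := om_comm hD h hu hp hi
  have h3 : Om D (0 : Matrix Unit Unit A) 0 = 0 := by
    rw [Om, dM_zero, Matrix.mul_zero, add_zero, add_zero]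
  rw [h3, Matrix.mul_zero] at h2
  rw [Matrix.add_mul, Matrix.mul_assoc, hPu, Matrix.sub_mul, h2, Matrix.one_mul]; abel

theorem eu_zero : eu D (0 : Matrix n n A) θ a = 1 := by
  rw [eu, Matrix.mul_zero, add_zero, detE_one]

theorem eu_one : eu D (1 : Matrix n n A) θ a = detE (Om D θ a) := by
  rw [eu, Matrix.mul_one, add_sub_cancel]

/-- `eu` in a frame of the image of `P` -/
theorem eu_frame (hD : IsD D) (h : OdM θ) (ha : EvM a) {S : Matrix n m A} {T : Matrix m n A}
    (hS : EvM S) (hT : EvM T) (h1 : T * S = 1) (h2 : S * T = P) :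
    eu D P θ a = detE (T * Om D θ a * S) := by
  have hO := (evM_Om hD h ha).sub (EvM.one (n := n))
  rw [eu, ← h2, ← Matrix.mul_assoc, detE_one_add_comm (hO.mul hS) hT, Matrix.sub_mul,
    Matrix.one_mul, Matrix.mul_sub, h1, add_sub_cancel, Matrix.mul_assoc]

/-! ### modifications -/

omit [DecidableEq n] in
theorem Cn.add (h : Cn D P θ a) {C : Matrix n n A} (hC : OdM C) (hP : P * C = C * P)
    (hi : Inv D a a C) : Cn D P (θ + C) a where
  evP := h.evP
  odθ := h.odθ.add hC
  eva := h.eva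
  idem := h.idem
  par := by
    have := h.par
    rw [cov] at this ⊢
    rw [Matrix.add_mul, Matrix.mul_add, hP, ← this]; abel
  inv := h.inv
  bia := by
    rw [Bia, dM_add, dM_add, h.bia, hi, Matrix.add_mul, Matrix.mul_add]; abel

omit [DecidableEq n] in
theorem Cn.sub (h : Cn D P θ a) {C : Matrix n n A} (hC : OdM C) (hP : P * C = C * P)
    (hi : Inv D a a C) : Cn D P (θ - C) a := by
  rw [sub_eq_add_neg]
  exact h.add hC.neg (by rw [Matrix.mul_neg, Matrix.neg_mul, hP]) hi.neg

omit [DecidableEq n] in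
theorem Bia.sub {θ₁ : Matrix n n A} (h₁ : Bia D θ₁ a) (h : Bia D θ a) : Inv D a a (θ₁ - θ) := by
  rw [Inv, dM_sub, dM_sub, h, h₁, Matrix.sub_mul, Matrix.mul_sub]; abel

omit [DecidableEq n] in
theorem Cn.comm_sub {θ₁ : Matrix n n A} (h₁ : Cn D P θ₁ a) (h : Cn D P θ a) :
    P * (θ₁ - θ) = (θ₁ - θ) * P := by
  have h1 := cov_eq_zero.1 h.par
  rw [cov_eq_zero.1 h₁.par] at h1
  rw [Matrix.sub_mul, Matrix.mul_sub, sub_eq_iff_eq_add.1 h1]; abel

omit [DecidableEq n] in
/-- affine combination with an invariant coefficient -/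
theorem Cn.affine (hD : IsD D) {θ₁ : Matrix n n A} (h : Cn D P θ a) (h₁ : Cn D P θ₁ a) {f : A}
    (hf : σ f = f) (hf' : D (D f) = 0) : Cn D P (θ + f • (θ₁ - θ)) a :=
  h.add ((h₁.odθ.sub h.odθ).smul hf)
    (by rw [mul_smul_ev hf, Matrix.smul_mul, h₁.comm_sub h]) ((h₁.bia.sub h.bia).smul hD hf hf')

omit [DecidableEq n] [DecidableEq m] in
theorem Cn.mul_cov (hD : IsD D) (h' : Cn D P' θ' a') {S : Matrix m n A} (hS : P' * S = S) :
    P' * cov D θ' θ S = cov D θ' θ S := by
  conv_rhs => rw [← hS, cov_mul (θ' := θ') hD h'.evP, h'.par, Matrix.zero_mul, zero_add]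

omit [DecidableEq n] in
theorem bia_zero : Bia D (0 : Matrix n n A) 0 := by
  rw [Bia, dM_zero, dM_zero, Matrix.mul_zero, sub_zero, sub_zero]

omit [DecidableEq n] in
/-- the modification `∇ - ∇u ⊗ w` -/
theorem Cn.triv (hD : IsD D) (h : Cn D P θ a) {u : Matrix n Unit A} {w : Matrix Unit n A}
    (hu : EvM u) (hw : EvM w) (hPu : P * u = u) (hwP : w * P = w) (hiu : Inv D a 0 u)
    (hiw : Inv D 0 a w) : Cn D P (θ - cov D θ 0 u * w) a :=
  h.sub ((odM_cov hD h.odθ OdM.zero hu).mul_ev hw)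
    (by rw [← Matrix.mul_assoc, h.mul_cov hD hPu, Matrix.mul_assoc, hwP])
    ((hiu.cov hD h.eva h.bia bia_zero hu).mul hD hiw)

omit [DecidableEq n] in
theorem cov_triv {u : Matrix n Unit A} {w : Matrix Unit n A} (h1 : w * u = 1) :
    cov D (θ - cov D θ 0 u * w) 0 u = 0 := by
  rw [cov_left_sub, Matrix.mul_assoc, h1, Matrix.mul_one, sub_self]

/-- the compression of an ambient connection to the image of `P` -/
def cmp (D : A →+ A) (P θ : Matrix n n A) : Matrix n n A :=
  θ + (P * cov D θ θ P - cov D θ θ P * P)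

omit [DecidableEq n] in
theorem Cn.cmp (hD : IsD D) (hθ : OdM θ) (ha : EvM a) (hb : Bia D θ a) (hP : EvM P)
    (hPP : P * P = P) (hi : Inv D a a P) : Cn D P (cmp D P θ) a := by
  have hδ := odM_cov hD hθ hθ hP
  have hiδ := hi.cov hD ha hb hb hP
  have h1 : cov D θ θ P = cov D θ θ P * P + P * cov D θ θ P := by
    refine Eq.trans (by rw [hPP]) (?_ : cov D θ θ (P * P) = _)
    rw [show cov D θ θ (P * P) = _ from cov_mul (θ' := θ) hD hP]
  have h2 : P * cov D θ θ P * P = 0 := by
    have h3 : P * cov D θ θ P * P = P * cov D θ θ P * P + P * cov D θ θ P * P := by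
      conv_lhs => rw [h1]
      simp only [Matrix.mul_add, Matrix.add_mul, Matrix.mul_assoc, hPP]
      rw [← Matrix.mul_assoc P P, hPP]
    exact left_eq_add.1 h3
  refine ⟨hP, hθ.add ((hP.mul_od hδ).sub (hδ.mul_ev hP)), ha, hPP, ?_, hi, ?_⟩
  · have h4 : cov D (Eul.cmp D P θ) (Eul.cmp D P θ) P = cov D θ θ P
        + ((P * cov D θ θ P * P + P * cov D θ θ P * P)
          - (cov D θ θ P * (P * P) + (P * P) * cov D θ θ P)) := by
      have h5 : ∀ C, cov D (θ + C) (θ + C) P = cov D θ θ P + (C * P - P * C) := fun C => by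
        simp only [cov, Matrix.add_mul, Matrix.mul_add]; abel
      rw [Eul.cmp, h5]
      generalize cov D θ θ P = δ
      simp only [Matrix.add_mul, Matrix.sub_mul, Matrix.mul_add, Matrix.mul_sub, Matrix.mul_assoc]
      abel
    rw [h4, h2, hPP, ← h1]; abel
  · have := ((hi.mul hD hiδ).sub (hiδ.mul hD hi))
    rw [Bia, Eul.cmp, dM_add, dM_add, hb, this, Matrix.add_mul, Matrix.mul_add]; abel

/-- shifting the weight by a closed even constant -/
theorem Cn.shift (hD : IsD D) (h : Cn D P θ a) {c : A} (hc : σ c = c) (hc' : D c = 0) :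
    Cn D P θ (a + c • (1 : Matrix n n A)) := by
  have h1 : ∀ M : Matrix n n A, (a + c • (1 : Matrix n n A)) * M - M * (a + c • 1)
      = a * M - M * a := fun M => by
    rw [Matrix.add_mul, Matrix.mul_add, mul_smul_ev hc, Matrix.smul_mul, Matrix.one_mul,
      Matrix.mul_one]; abel
  have h2 : (c • (1 : Matrix n n A)).map D = 0 := Matrix.ext fun i j => by
    by_cases e : i = j
    · subst e; simp [hc']
    · simp [Matrix.one_apply_ne e]
  refine ⟨h.evP, h.odθ, h.eva.add (EvM.one.smul hc), h.idem, h.par, ?_, ?_⟩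
  · rw [Inv, h1]; exact h.inv
  · rw [Bia, h1, dM_add, h2, add_zero]; exact h.bia

/-! ### block sums -/

omit [DecidableEq n] [DecidableEq m] in
theorem Om_blocks (b : Matrix n m A) (c : Matrix m n A) :
    Om D (fromBlocks θ b c θ') (fromBlocks a 0 0 a') = fromBlocks (Om D θ a + b * c)
      (b.map D + θ * b + b * θ') (c.map D + c * θ + θ' * c) (Om D θ' a' + c * b) := by
  rw [Om, fromBlocks_map, fromBlocks_multiply, fromBlocks_add, fromBlocks_add, Om, Om]
  congr 1 <;> abel

theorem eu_blocks_aux (M : Matrix n n A) (b : Matrix n m A) (c : Matrix m n A) (M' : Matrix m m A) :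
    1 + (fromBlocks M b c M' - 1) * fromBlocks P 0 0 P'
      = fromBlocks (1 + (M - 1) * P) (b * P') (c * P) (1 + (M' - 1) * P') := by
  rw [← fromBlocks_one, sub_eq_add_neg, fromBlocks_neg, fromBlocks_add, fromBlocks_multiply,
    fromBlocks_add]
  simp only [Matrix.mul_zero, add_zero, zero_add, neg_zero, ← sub_eq_add_neg]

theorem eu_upper (hD : IsD D) (hP : EvM P) (h : OdM θ) (ha : EvM a) (hP' : EvM P') (h' : OdM θ')
    (ha' : EvM a') {b : Matrix n m A} (hb : OdM b) :
    eu D (fromBlocks P 0 0 P') (fromBlocks θ b 0 θ') (fromBlocks a 0 0 a')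
      = eu D P θ a * eu D P' θ' a' := by
  rw [eu, Om_blocks, eu_blocks_aux]
  simp only [Matrix.mul_zero, Matrix.zero_mul, add_zero, dM_zero]
  exact detE_upper (evM_eu hD hP h ha)
    ((((hD.od_d hb).add (h.mul hb)).add (hb.mul h')).mul hP') (evM_eu hD hP' h' ha')

theorem eu_lower (hD : IsD D) (hP : EvM P) (h : OdM θ) (ha : EvM a) (hP' : EvM P') (h' : OdM θ')
    (ha' : EvM a') {c : Matrix m n A} (hc : OdM c) :
    eu D (fromBlocks P 0 0 P') (fromBlocks θ 0 c θ') (fromBlocks a 0 0 a')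
      = eu D P θ a * eu D P' θ' a' := by
  rw [eu, Om_blocks, eu_blocks_aux]
  simp only [Matrix.mul_zero, Matrix.zero_mul, add_zero, dM_zero]
  exact detE_lower (evM_eu hD hP h ha)
    ((((hD.od_d hc).add (hc.mul h)).add (h'.mul hc)).mul hP) (evM_eu hD hP' h' ha')

omit [DecidableEq n] [DecidableEq m] in
theorem fromBlocks_sub' {n' m' : Type*} (M M' : Matrix n n' A) (N N' : Matrix n m' A)
    (Q Q' : Matrix m n' A) (R R' : Matrix m m' A) :
    fromBlocks M N Q R - fromBlocks M' N' Q' R' = fromBlocks (M - M') (N - N') (Q - Q') (R - R') := by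
  rw [sub_eq_add_neg, fromBlocks_neg, fromBlocks_add]; simp only [← sub_eq_add_neg]

omit [DecidableEq n] [DecidableEq m] in
theorem Cn.sum (h : Cn D P θ a) (h' : Cn D P' θ' a') :
    Cn D (fromBlocks P 0 0 P') (fromBlocks θ 0 0 θ') (fromBlocks a 0 0 a') := by
  refine ⟨h.evP.fromBlocks EvM.zero EvM.zero h'.evP, h.odθ.fromBlocks OdM.zero OdM.zero h'.odθ,
    h.eva.fromBlocks EvM.zero EvM.zero h'.eva, ?_, ?_, ?_, ?_⟩
  · simp only [fromBlocks_multiply, Matrix.mul_zero, Matrix.zero_mul, add_zero, zero_add, h.idem,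
      h'.idem]
  · rw [cov_eq_zero]
    simp only [fromBlocks_map, fromBlocks_multiply, Matrix.mul_zero, Matrix.zero_mul, add_zero,
      zero_add, fromBlocks_sub', sub_zero, dM_zero, cov_eq_zero.1 h.par, cov_eq_zero.1 h'.par]
  · have h1 := h.inv
    have h2 := h'.inv
    rw [Inv] at h1 h2 ⊢
    simp only [fromBlocks_map, fromBlocks_multiply, Matrix.mul_zero, Matrix.zero_mul, add_zero,
      zero_add, fromBlocks_sub', sub_zero, dM_zero, h1, h2]
  · have h1 := h.bia
    have h2 := h'.bia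
    rw [Bia] at h1 h2 ⊢
    simp only [fromBlocks_map, fromBlocks_multiply, Matrix.mul_zero, Matrix.zero_mul, add_zero,
      zero_add, fromBlocks_sub', sub_zero, dM_zero, h1, h2]

end basic

/-! ### naturality -/

/-- homomorphism of differential super rings -/
structure IsH (D : A →+ A) (D' : B →+ B) (φ : A →+* B) : Prop where
  sg : ∀ a, φ (σ a) = σ (φ a)
  d : ∀ a, φ (D a) = D' (φ a)

section nat
variable {φ : A →+* B} {θ a P : Matrix n n A} {θ' a' : Matrix m m A}

omit [Fintype n] [Fintype m] in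
theorem IsH.dM (h : IsH D D' φ) (M : Matrix n m A) : (M.map D).map φ = (M.map φ).map D' :=
  Matrix.ext fun _ _ => h.d _

omit [Fintype n] [Fintype m] [Sup A] [Sup B] in
theorem mapH_add (M N : Matrix n m A) : (M + N).map φ = M.map φ + N.map φ :=
  Matrix.ext fun _ _ => map_add φ _ _
omit [Fintype n] [Fintype m] [Sup A] [Sup B] in
theorem mapH_sub (M N : Matrix n m A) : (M - N).map φ = M.map φ - N.map φ :=
  Matrix.ext fun _ _ => map_sub φ _ _
omit [Fintype n] [Fintype m] [Sup A] [Sup B] in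
theorem mapH_zero : (0 : Matrix n m A).map φ = 0 := Matrix.ext fun _ _ => map_zero φ
omit [Fintype n] [Sup A] [Sup B] in
theorem mapH_one [DecidableEq n] : (1 : Matrix n n A).map φ = 1 :=
  Matrix.map_one _ (map_zero _) (map_one _)

theorem IsH.Om (h : IsH D D' φ) : (Om D θ a).map φ = Om D' (θ.map φ) (a.map φ) := by
  rw [Eul.Om, Eul.Om, mapH_add, mapH_add, h.dM, Matrix.map_mul]

theorem IsH.cov (h : IsH D D' φ) (S : Matrix m n A) :
    (cov D θ' θ S).map φ = cov D' (θ'.map φ) (θ.map φ) (S.map φ) := by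
  rw [Eul.cov, Eul.cov, mapH_sub, mapH_add, h.dM, Matrix.map_mul, Matrix.map_mul]

theorem Inv.map (h : IsH D D' φ) {S : Matrix m n A} (hS : Inv D a' a S) :
    Inv D' (a'.map φ) (a.map φ) (S.map φ) := by
  rw [Inv, ← h.dM, ← h.dM, hS, mapH_sub, Matrix.map_mul, Matrix.map_mul]

theorem Bia.map (h : IsH D D' φ) (hb : Bia D θ a) : Bia D' (θ.map φ) (a.map φ) := by
  rw [Bia, ← h.dM, ← h.dM, hb, mapH_sub, mapH_sub, Matrix.map_mul, Matrix.map_mul, h.dM]

theorem Cn.map (h : IsH D D' φ) (hc : Cn D P θ a) : Cn D' (P.map φ) (θ.map φ) (a.map φ) where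
  evP := hc.evP.map h.sg
  odθ := hc.odθ.map h.sg
  eva := hc.eva.map h.sg
  idem := by rw [← Matrix.map_mul, hc.idem]
  par := by rw [← h.cov, hc.par, mapH_zero]
  inv := hc.inv.map h
  bia := hc.bia.map h

theorem IsH.eu [DecidableEq n] (h : IsH D D' φ) (hD : IsD D) (hP : EvM P) (hθ : OdM θ)
    (ha : EvM a) : φ (eu D P θ a) = eu D' (P.map φ) (θ.map φ) (a.map φ) := by
  rw [Eul.eu, Eul.eu, map_detE (evM_eu hD hP hθ ha) φ h.sg, mapH_add, Matrix.map_mul, mapH_sub,
    mapH_one, h.Om]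

end nat

end Crest.Agent.X262.Eul
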