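import Crest.Agent.X262.Eul.Cn

/-! Row 262, GW-CORE (helper34).  `Eul/Tr`: algebraic transgression of `eu` along the segment
between two connections (computed in `A[t] ⊕ dt A[t]`). -/

set_option autoImplicit false
set_option linter.unusedSectionVars false

open Matrix Polynomial

namespace Crest.Agent.X262.Eul

/-! ### polynomials -/

section poly
variable {A B : Type*} [Ring A] [Ring B]

/-- coefficientwise action of an additive map -/
noncomputable def cw (D : A →+ B) : A[X] →+ B[X] where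
  toFun p := p.sum fun k a => monomial k (D a)
  map_zero' := Polynomial.sum_zero_index _
  map_add' p q := Polynomial.sum_add_index p q _ (fun k => by simp) (fun k a b => by simp)

theorem cw_monomial (D : A →+ B) (k : ℕ) (a : A) : cw D (monomial k a) = monomial k (D a) :=
  Polynomial.sum_monomial_index a (fun k a => monomial k (D a)) (by simp)

theorem coeff_cw (D : A →+ B) (p : A[X]) (k : ℕ) : (cw D p).coeff k = D (p.coeff k) := by
  induction p using Polynomial.induction_on' with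
  | add p q hp hq => simp only [map_add, coeff_add, hp, hq]
  | monomial j a =>
    rw [cw_monomial, coeff_monomial, coeff_monomial]
    split_ifs
    · rfl
    · exact (map_zero D).symm

variable [Sup A] [Sup B]

noncomputable instance : Sup A[X] where
  σ := Polynomial.mapRingHom σ
  σσ p := Polynomial.ext fun k => by simp [Sup.σσ]
  comm p q h := Polynomial.ext fun k => by
    have h' : ∀ j, σ (p.coeff j) = p.coeff j := fun j => by
      have := congrArg (fun r => r.coeff j) h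
      simpa using this
    rw [coeff_mul, coeff_mul, ← Finset.Nat.sum_antidiagonal_swap]
    exact Finset.sum_congr rfl fun x _ => Sup.comm _ _ (h' _)
  ocomm p q h := Polynomial.ext fun k => by
    have h' : ∀ j, σ (p.coeff j) = - p.coeff j := fun j => by
      have := congrArg (fun r => r.coeff j) h
      simpa using this
    rw [coeff_mul, coeff_mul, ← Finset.Nat.sum_antidiagonal_swap]
    refine Finset.sum_congr rfl fun x _ => ?_
    rw [Sup.ocomm _ _ (h' _)]
    simp

theorem coeff_σ (p : A[X]) (k : ℕ) : (σ p).coeff k = σ (p.coeff k) := coeff_map _ _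

theorem IsD.cw {D : A →+ A} (hD : IsD D) : IsD (cw D) where
  mul p q := Polynomial.ext fun k => by
    simp only [coeff_cw, coeff_add, coeff_mul, map_sum, hD.mul, coeff_σ, Finset.sum_add_distrib]
  odd p := Polynomial.ext fun k => by
    simp only [coeff_σ, coeff_cw, coeff_neg, hD.odd]

theorem cw_derivative {D : A →+ A} (p : A[X]) : cw D (derivative p) = derivative (cw D p) :=
  Polynomial.ext fun k => by
    rw [coeff_cw, coeff_derivative, coeff_derivative, coeff_cw, ← Nat.cast_succ, ← nsmul_eq_mul',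
      ← nsmul_eq_mul', map_nsmul]

theorem σ_derivative (p : A[X]) : σ (derivative p) = derivative (σ p) :=
  (derivative_map p _).symm

end poly

/-! ### the cylinder -/

/-- twisted bimodule `dt · R` -/
def Tw (R : Type*) := R

section cyl
variable {R : Type*} [Ring R] [Sup R]

instance : AddCommGroup (Tw R) := inferInstanceAs (AddCommGroup R)
instance : Module R (Tw R) := Module.compHom R (σ : R →+* R)
instance : Module Rᵐᵒᵖ (Tw R) := inferInstanceAs (Module Rᵐᵒᵖ R)
instance : SMulCommClass R Rᵐᵒᵖ (Tw R) :=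
  ⟨fun a b (c : R) => (mul_assoc (σ a) c b.unop).symm⟩

/-- `R ⊕ dt R` -/
def Cy (R : Type*) [Ring R] [Sup R] := TrivSqZeroExt R (Tw R)

instance : Ring (Cy R) := inferInstanceAs (Ring (TrivSqZeroExt R (Tw R)))

namespace Cy
/-- constructor -/
def mk (p q : R) : Cy R := (p, q)
/-- the part without `dt` -/
def p (a : Cy R) : R := a.1
/-- the coefficient of `dt` -/
def q (a : Cy R) : R := a.2

@[ext] theorem ext {a b : Cy R} (h1 : a.p = b.p) (h2 : a.q = b.q) : a = b := Prod.ext h1 h2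
@[simp] theorem p_mk (a b : R) : (mk a b).p = a := rfl
@[simp] theorem q_mk (a b : R) : (mk a b).q = b := rfl
@[simp] theorem p_add (a b : Cy R) : (a + b).p = a.p + b.p := rfl
@[simp] theorem q_add (a b : Cy R) : (a + b).q = a.q + b.q := rfl
@[simp] theorem p_neg (a : Cy R) : (-a).p = -a.p := rfl
@[simp] theorem q_neg (a : Cy R) : (-a).q = -a.q := rfl
@[simp] theorem p_mul (a b : Cy R) : (a * b).p = a.p * b.p := rfl
@[simp] theorem q_mul (a b : Cy R) : (a * b).q = σ a.p * b.q + a.q * b.p := rfl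
@[simp] theorem p_one : (1 : Cy R).p = 1 := rfl
@[simp] theorem q_one : (1 : Cy R).q = 0 := rfl
@[simp] theorem p_zero : (0 : Cy R).p = 0 := rfl
@[simp] theorem q_zero : (0 : Cy R).q = 0 := rfl

/-- the involution -/
def sg : Cy R →+* Cy R where
  toFun a := mk (σ a.p) (-σ a.q)
  map_one' := by ext <;> simp
  map_zero' := by ext <;> simp
  map_add' a b := by ext <;> simp [add_comm]
  map_mul' a b := by ext <;> simp [add_comm]

instance : Sup (Cy R) where
  σ := sg
  σσ a := by ext <;> simp [sg, Sup.σσ]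
  comm a b h := by
    have h1 : σ a.p = a.p := congrArg p h
    have h2 : σ a.q = - a.q := neg_eq_iff_eq_neg.1 (congrArg q h)
    ext
    · simp [Sup.comm _ _ h1]
    · simp only [q_mul, h1]
      rw [Sup.comm _ b.q h1, Sup.ocomm _ b.p h2, add_comm]
  ocomm a b h := by
    have h1 : σ a.p = - a.p := congrArg p h
    have h2 : σ a.q = a.q := neg_inj.1 (congrArg q h)
    ext
    · exact Sup.ocomm _ _ h1
    · change σ a.p * b.q + a.q * b.p = σ (σ b.p) * a.q + -σ b.q * a.p
      rw [h1, Sup.σσ, Sup.comm _ b.p h2, neg_mul, neg_mul, Sup.ocomm _ b.q h1, add_comm]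

@[simp] theorem p_σ (a : Cy R) : (σ a).p = σ a.p := rfl
@[simp] theorem q_σ (a : Cy R) : (σ a).q = - σ a.q := rfl
end Cy

end cyl

section trans
variable {A B : Type*} [Ring A] [Sup A] [Ring B] [Sup B] {D : A →+ A} {D' : B →+ B}

/-- `D + dt ∂ₜ` -/
noncomputable def cyD (D : A →+ A) : Cy A[X] →+ Cy A[X] where
  toFun a := Cy.mk (cw D a.p) (derivative a.p - cw D a.q)
  map_zero' := by ext <;> simp
  map_add' a b := by
    refine Cy.ext (by simp) ?_
    simp only [Cy.q_mk, Cy.p_add, Cy.q_add, map_add]; abel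

@[simp] theorem p_cyD (a : Cy A[X]) : (cyD D a).p = cw D a.p := rfl
@[simp] theorem q_cyD (a : Cy A[X]) : (cyD D a).q = derivative a.p - cw D a.q := rfl

theorem IsD.cyD (hD : IsD D) : IsD (cyD D) where
  mul a b := by
    refine Cy.ext (by simp [hD.cw.mul]) ?_
    simp only [q_cyD, p_cyD, Cy.p_mul, Cy.q_mul, Cy.q_add, Cy.p_σ, Cy.q_σ, derivative_mul, map_add,
      hD.cw.mul, hD.cw.odd, Sup.σσ, sub_mul, mul_sub, neg_mul]
    abel
  odd a := by
    refine Cy.ext (by simp [hD.cw.odd]) ?_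
    simp only [q_cyD, Cy.q_σ, Cy.p_σ, Cy.q_neg, map_sub, map_neg, σ_derivative, hD.cw.odd]

/-- constants -/
noncomputable def cyC : A →+* Cy A[X] where
  toFun a := Cy.mk (C a) 0
  map_one' := by ext <;> simp
  map_zero' := by ext <;> simp
  map_add' a b := by ext <;> simp
  map_mul' a b := by ext <;> simp

theorem cw_C (a : A) : cw D (C a) = C (D a) := cw_monomial D 0 a

theorem isH_cyC : IsH D (cyD D) (cyC : A →+* _) where
  sg a := Cy.ext (map_C _).symm (by simp [cyC])
  d a := Cy.ext (cw_C a).symm (by simp [cyC])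

/-- the parameter -/
noncomputable def cyT : Cy A[X] := Cy.mk X 0

theorem σ_cyT : σ (cyT : Cy A[X]) = cyT := Cy.ext (map_X _) (by simp [cyT])

theorem cw_X (hD : IsD D) : cw D (X : A[X]) = 0 := by
  rw [← monomial_one_one_eq_X, cw_monomial, hD.one, map_zero]

theorem dd_cyT (hD : IsD D) : cyD D (cyD D cyT) = 0 := by
  refine Cy.ext (by simp [cyT, cw_X hD]) ?_
  simp [cyT, cw_X hD, hD.cw.one]

/-- evaluation at a natural number -/
noncomputable def cyEv (c : ℕ) : Cy A[X] →+* A where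
  toFun a := a.p.eval (c : A)
  map_one' := by simp
  map_zero' := by simp
  map_add' a b := by simp
  map_mul' a b := by
    change eval₂ (RingHom.id A) (c : A) (a.p * b.p) = _
    exact eval₂_mul_noncomm _ _ fun k => (Nat.cast_commute c _).symm

theorem add_eval (f : A →+ B) (c : ℕ) (p : A[X]) :
    f (p.eval (c : A)) = (cw f p).eval (c : B) := by
  induction p using Polynomial.induction_on' with
  | add p q hp hq => simp only [map_add, eval_add, hp, hq]
  | monomial j a =>
    rw [cw_monomial, eval_monomial, eval_monomial, ← Nat.cast_pow, ← Nat.cast_pow, ← nsmul_eq_mul',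
      ← nsmul_eq_mul', map_nsmul]

theorem cw_ringHom (φ : A →+* B) (p : A[X]) : cw (φ : A →+ B) p = p.map φ :=
  Polynomial.ext fun k => by rw [coeff_cw, coeff_map]; rfl

theorem isH_cyEv (c : ℕ) : IsH (cyD D) D (cyEv c : _ →+* A) where
  sg a := by
    change (a.p.map σ).eval _ = σ (a.p.eval _)
    rw [← cw_ringHom]; exact (add_eval ((σ : A →+* A) : A →+ A) c a.p).symm
  d a := (add_eval D c a.p).symm

theorem cyEv_C (c : ℕ) (a : A) : cyEv c (cyC a) = a := eval_C
theorem cyEv_T (c : ℕ) : cyEv c (cyT : Cy A[X]) = c := eval_X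

/-- functoriality of the cylinder -/
noncomputable def cyMap (φ : A →+* B) (h : ∀ a, φ (σ a) = σ (φ a)) : Cy A[X] →+* Cy B[X] where
  toFun a := Cy.mk (a.p.map φ) (a.q.map φ)
  map_one' := by ext <;> simp
  map_zero' := by ext <;> simp
  map_add' a b := by ext <;> simp
  map_mul' a b := by
    refine Cy.ext (by simp [Polynomial.map_mul]) ?_
    have : (σ a.p).map φ = σ (a.p.map φ) := Polynomial.ext fun k => by
      rw [coeff_map, coeff_σ, coeff_σ, coeff_map, h]
    simp [Polynomial.map_mul, this]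

theorem IsH.cyMap {φ : A →+* B} (h : IsH D D' φ) : IsH (cyD D) (cyD D') (cyMap φ h.sg) := by
  have h1 : ∀ p : A[X], (σ p).map φ = σ (p.map φ) := fun p => Polynomial.ext fun k => by
    rw [coeff_map, coeff_σ, coeff_σ, coeff_map, h.sg]
  have h2 : ∀ p : A[X], (cw D p).map φ = cw D' (p.map φ) := fun p => Polynomial.ext fun k => by
    rw [coeff_map, coeff_cw, coeff_cw, coeff_map, h.d]
  refine ⟨fun a => Cy.ext (h1 _) ?_, fun a => Cy.ext (h2 _) ?_⟩
  · change (-σ a.q).map φ = -σ (a.q.map φ)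
    rw [Polynomial.map_neg, h1]
  · change (derivative a.p - cw D a.q).map φ = derivative (a.p.map φ) - cw D' (a.q.map φ)
    rw [Polynomial.map_sub, h2, derivative_map]

variable [Module ℚ A] [Module ℚ B]

/-- `∫₀¹` of a polynomial -/
noncomputable def i01 : A[X] →+ A where
  toFun p := p.sum fun k a => ((k : ℚ) + 1)⁻¹ • a
  map_zero' := Polynomial.sum_zero_index _
  map_add' p q := Polynomial.sum_add_index p q _ (fun k => by simp) (fun k a b => by simp)

theorem i01_monomial (k : ℕ) (a : A) : i01 (monomial k a) = ((k : ℚ) + 1)⁻¹ • a :=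
  Polynomial.sum_monomial_index a _ (by simp)

theorem map_i01 (f : A →+ B) (p : A[X]) : f (i01 p) = i01 (cw f p) := by
  induction p using Polynomial.induction_on' with
  | add p q hp hq => simp only [map_add, hp, hq]
  | monomial j a => rw [cw_monomial, i01_monomial, i01_monomial, map_rat_smul]

theorem i01_derivative (p : A[X]) :
    i01 (derivative p) = p.eval ((1 : ℕ) : A) - p.eval ((0 : ℕ) : A) := by
  induction p using Polynomial.induction_on' with
  | add p q hp hq => simp only [map_add, eval_add, hp, hq]; abel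
  | monomial j a =>
    rw [derivative_monomial, i01_monomial, eval_monomial, eval_monomial]
    cases j with
    | zero => simp
    | succ j =>
      have h : ((j : ℚ) + 1) ≠ 0 := by positivity
      rw [← nsmul_eq_mul', ← Nat.cast_smul_eq_nsmul ℚ, smul_smul]
      simp [h]

variable {n m : Type*} [Fintype n] [Fintype m] [DecidableEq n] [DecidableEq m]

/-- the segment of connections -/
noncomputable def seg (θ₀ θ₁ : Matrix n n A) : Matrix n n (Cy A[X]) :=
  θ₀.map cyC + (cyT : Cy A[X]) • (θ₁.map cyC - θ₀.map cyC)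

/-- the transgression form -/
noncomputable def tg (D : A →+ A) (P θ₀ θ₁ a : Matrix n n A) : A :=
  i01 (eu (cyD D) (P.map cyC) (seg θ₀ θ₁) (a.map cyC)).q

variable {P θ₀ θ₁ a : Matrix n n A} {P' θ₀' θ₁' a' : Matrix m m A}

theorem odM_seg (h₀ : OdM θ₀) (h₁ : OdM θ₁) : OdM (seg θ₀ θ₁) :=
  (h₀.map (isH_cyC (D := 0)).sg).add
    (((h₁.map (isH_cyC (D := 0)).sg).sub (h₀.map (isH_cyC (D := 0)).sg)).smul σ_cyT)

theorem map_smul' {R S : Type*} [Ring R] [Ring S] (φ : R →+* S) (f : R) (M : Matrix n m R) :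
    (f • M).map φ = φ f • M.map φ := Matrix.ext fun i j => map_mul φ _ _

theorem ev_cyC (c : ℕ) (M : Matrix n m A) : (M.map cyC).map (cyEv c) = M :=
  Matrix.ext fun i j => cyEv_C c _

theorem ev_seg (c : ℕ) : (seg θ₀ θ₁).map (cyEv c) = θ₀ + (c : A) • (θ₁ - θ₀) := by
  rw [seg, mapH_add, map_smul', mapH_sub, ev_cyC, ev_cyC, cyEv_T]

/-- **transgression** -/
theorem d_tg (hD : IsD D) (h₀ : Cn D P θ₀ a) (h₁ : Cn D P θ₁ a) :
    D (tg D P θ₀ θ₁ a) = eu D P θ₁ a - eu D P θ₀ a := by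
  have hc : Cn (cyD D) (P.map cyC) (seg θ₀ θ₁) (a.map cyC) :=
    (h₀.map isH_cyC).affine hD.cyD (h₁.map isH_cyC) σ_cyT (dd_cyT hD)
  have h2 := congrArg Cy.q (hc.d_eu hD.cyD)
  rw [q_cyD, Cy.q_zero, sub_eq_zero] at h2
  have h3 : ∀ c : ℕ, (eu (cyD D) (P.map cyC) (seg θ₀ θ₁) (a.map cyC)).p.eval (c : A)
      = eu D P (θ₀ + (c : A) • (θ₁ - θ₀)) a := fun c => by
    have := (isH_cyEv (D := D) c).eu hD.cyD hc.evP hc.odθ hc.eva
    rw [ev_cyC, ev_cyC, ev_seg] at this
    exact this
  rw [tg, map_i01, ← h2, i01_derivative, h3, h3]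
  simp

theorem σ_tg : σ (tg D P θ₀ θ₁ a) = - tg D P θ₀ θ₁ a := by
  have h := congrArg Cy.q (σ_eu (D := cyD D) (P := P.map cyC) (θ := seg θ₀ θ₁) (a := a.map cyC))
  rw [Cy.q_σ, neg_eq_iff_eq_neg] at h
  have h2 := map_i01 ((σ : A →+* A) : A →+ A)
    (eu (cyD D) (P.map cyC) (seg θ₀ θ₁) (a.map cyC)).q
  rw [cw_ringHom] at h2
  rw [tg, ← map_neg, ← h]
  exact h2

theorem cov_seg {S : Matrix m n A} (h₀ : cov D θ₀' θ₀ S = 0) (h₁ : cov D θ₁' θ₁ S = 0) :
    cov (cyD D) (seg θ₀' θ₁') (seg θ₀ θ₁) (S.map cyC) = 0 := by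
  have e₀ := (isH_cyC (D := D)).cov (θ' := θ₀') (θ := θ₀) S
  have e₁ := (isH_cyC (D := D)).cov (θ' := θ₁') (θ := θ₁) S
  rw [h₀, mapH_zero] at e₀
  rw [h₁, mapH_zero] at e₁
  have h : cov (cyD D) (seg θ₀' θ₁') (seg θ₀ θ₁) (S.map cyC)
      = cov (cyD D) (θ₀'.map cyC) (θ₀.map cyC) (S.map cyC) + (cyT : Cy A[X]) •
        (cov (cyD D) (θ₁'.map cyC) (θ₁.map cyC) (S.map cyC)
          - cov (cyD D) (θ₀'.map cyC) (θ₀.map cyC) (S.map cyC)) := by
    simp only [cov, seg, Matrix.add_mul, Matrix.mul_add, Matrix.smul_mul, mul_smul_ev σ_cyT,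
      Matrix.sub_mul, Matrix.mul_sub, smul_sub, smul_add]
    abel
  rw [h, ← e₀, ← e₁, sub_zero, smul_zero, add_zero]

/-- gauge invariance of the transgression form -/
theorem tg_gauge (hD : IsD D) (h₀ : OdM θ₀) (h₁ : OdM θ₁) (ha : EvM a) (h₀' : OdM θ₀')
    (h₁' : OdM θ₁') (ha' : EvM a') {S : Matrix m n A} {T : Matrix n m A} (hS : EvM S) (hT : EvM T)
    (e1 : T * S = P) (e2 : S * T = P') (hp₀ : cov D θ₀' θ₀ S = 0) (hp₁ : cov D θ₁' θ₁ S = 0)
    (hi : Inv D a' a S) : tg D P' θ₀' θ₁' a' = tg D P θ₀ θ₁ a := by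
  have hs := (isH_cyC (D := D)).sg
  rw [tg, tg, eu_gauge hD.cyD (odM_seg h₀ h₁) (ha.map hs) (odM_seg h₀' h₁') (ha'.map hs)
    (hS.map hs) (hT.map hs) (by rw [← Matrix.map_mul, e1]) (by rw [← Matrix.map_mul, e2])
    (cov_seg hp₀ hp₁) (hi.map isH_cyC)]

/-- the transgression form vanishes along a common parallel section -/
theorem tg_eq_zero (hD : IsD D) (hP : EvM P) (h₀ : OdM θ₀) (h₁ : OdM θ₁) (ha : EvM a)
    {u : Matrix n Unit A} {w : Matrix Unit n A} (hu : EvM u) (hw : EvM w) (h1 : w * u = 1)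
    (hPu : P * u = u) (hp₀ : cov D θ₀ 0 u = 0) (hp₁ : cov D θ₁ 0 u = 0) (hi : Inv D a 0 u) :
    tg D P θ₀ θ₁ a = 0 := by
  have hs := (isH_cyC (D := D)).sg
  have h2 := cov_seg (θ₀ := 0) (θ₁ := 0) hp₀ hp₁
  have h3 : seg (0 : Matrix Unit Unit A) 0 = 0 := by
    rw [seg, mapH_zero, sub_zero, smul_zero, add_zero]
  have h4 := hi.map (isH_cyC (D := D))
  rw [h3] at h2
  rw [mapH_zero] at h4
  rw [tg, eu_eq_zero hD.cyD (hP.map hs) (odM_seg h₀ h₁) (ha.map hs) (hu.map hs) (hw.map hs)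
    (by rw [← Matrix.map_mul, h1, mapH_one]) (by rw [← Matrix.map_mul, hPu]) h2 h4, Cy.q_zero,
    map_zero]

theorem tg_self (hD : IsD D) (hP : EvM P) (h₀ : OdM θ₀) (ha : EvM a) : tg D P θ₀ θ₀ a = 0 := by
  rw [tg, seg, sub_self, smul_zero, add_zero, ← (isH_cyC (D := D)).eu hD hP h₀ ha]
  exact map_zero _

/-- naturality of the transgression form -/
theorem IsH.tg {φ : A →+* B} (h : IsH D D' φ) (hD : IsD D) (hP : EvM P) (h₀ : OdM θ₀)
    (h₁ : OdM θ₁) (ha : EvM a) :
    φ (Eul.tg D P θ₀ θ₁ a) = Eul.tg D' (P.map φ) (θ₀.map φ) (θ₁.map φ) (a.map φ) := by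
  have hs := (isH_cyC (D := D)).sg
  have h1 : ∀ M : Matrix n n A, (M.map cyC).map (Eul.cyMap φ h.sg) = (M.map φ).map cyC :=
    fun M => Matrix.ext fun i j => Cy.ext (map_C _) (Polynomial.map_zero _)
  have h2 : Eul.cyMap φ h.sg cyT = cyT := Cy.ext (map_X _) (Polynomial.map_zero _)
  have h3 := h.cyMap.eu hD.cyD (hP.map hs) (odM_seg h₀ h₁) (ha.map hs)
  rw [seg, mapH_add, map_smul', mapH_sub, h1, h1, h1, h1, h2] at h3
  have h4 := map_i01 (φ : A →+ B) (Eul.eu (cyD D) (P.map cyC) (seg θ₀ θ₁) (a.map cyC)).q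
  rw [cw_ringHom] at h4
  have h5 : seg (θ₀.map φ) (θ₁.map φ) = (θ₀.map φ).map cyC +
      (cyT : Cy B[X]) • ((θ₁.map φ).map cyC - (θ₀.map φ).map cyC) := rfl
  rw [Eul.tg, Eul.tg, h5, ← h3]
  exact h4

end trans

end Crest.Agent.X262.Eul
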